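import Mathlib
import Vale.Agent.P219.Univ.Algebra

/-!
# Calculus along the radial geodesics of a normal chart: Gauss lemma and Jacobi equation
-/

open scoped ContDiff RealInnerProductSpace

namespace Vale.Agent.P219.Univ.Geo

open Vale.Agent.P219

noncomputable section

variable {n : ℕ} {g : MetricField n} {E : Space n → Space n} {o : Space n}

lemma gam_add₂ (g : MetricField n) (x u v v' : Space n) :
    gam g x u (v + v') = gam g x u v + gam g x u v' := by
  have h : chris g x u (v + v') = chris g x u v + chris g x u v' := by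
    ext z
    simp [chris]
    ring
  simp [gam, sharp, h]

lemma gam_smul₂ (g : MetricField n) (x u : Space n) (a : ℝ) (v : Space n) :
    gam g x u (a • v) = a • gam g x u v := by
  have h : chris g x u (a • v) = a • chris g x u v := by
    ext z
    simp [chris]
    ring
  simp [gam, sharp, h, smul_comm a]

lemma gam_add₁ (g : MetricField n) (x u u' v : Space n) :
    gam g x (u + u') v = gam g x u v + gam g x u' v := by
  have h : chris g x (u + u') v = chris g x u v + chris g x u' v := by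
    ext z
    simp [chris]
    ring
  simp [gam, sharp, h]

lemma gam_smul₁ (g : MetricField n) (x : Space n) (a : ℝ) (u v : Space n) :
    gam g x (a • u) v = a • gam g x u v := by
  have h : chris g x (a • u) v = a • chris g x u v := by
    ext z
    simp [chris]
    ring
  simp [gam, sharp, h, smul_comm a]

/-- The product rule for the connection term along a curve. -/
lemma hasDerivAt_gam (hg : IsMetric g) {γ a b : ℝ → Space n} {γ' a' b' : Space n} {t : ℝ}
    (hγ : HasDerivAt γ γ' t) (ha : HasDerivAt a a' t) (hb : HasDerivAt b b' t) :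
    HasDerivAt (fun s => gam g (γ s) (a s) (b s))
      (fderiv ℝ (fun y => gam g y (a t) (b t)) (γ t) γ' + gam g (γ t) a' (b t) +
        gam g (γ t) (a t) b') t := by
  set f : Space n × Space n × Space n → Space n := fun p => gam g p.1 p.2.1 p.2.2
  set p0 : Space n × Space n × Space n := (γ t, a t, b t)
  have hd : HasFDerivAt f (fderiv ℝ f p0) p0 :=
    (((contDiff_gam hg).differentiable (by simp)) p0).hasFDerivAt
  have main : HasDerivAt (fun s => gam g (γ s) (a s) (b s)) (fderiv ℝ f p0 (γ', a', b')) t :=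
    hd.comp_hasDerivAt_of_eq t (hγ.prodMk (ha.prodMk hb)) rfl
  have e1 : fderiv ℝ f p0 (γ', 0, 0) = fderiv ℝ (fun y => gam g y (a t) (b t)) (γ t) γ' := by
    have hi : HasFDerivAt (fun y : Space n => (y, a t, b t))
        (ContinuousLinearMap.inl ℝ (Space n) (Space n × Space n)) (γ t) :=
      (hasFDerivAt_id (𝕜 := ℝ) (γ t)).prodMk (hasFDerivAt_const (a t, b t) (γ t))
    have h : HasFDerivAt (fun y => gam g y (a t) (b t))
        ((fderiv ℝ f p0).comp (ContinuousLinearMap.inl ℝ (Space n) (Space n × Space n))) (γ t) := by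
      exact HasFDerivAt.comp (γ t) hd hi
    rw [h.fderiv]
    rfl
  have e2 : fderiv ℝ f p0 (0, a', 0) = gam g (γ t) a' (b t) := by
    have h1 : HasDerivAt (fun s : ℝ => (γ t, a t + s • a', b t)) ((0 : Space n), a', (0 : Space n)) 0 :=
      (hasDerivAt_const (0 : ℝ) (γ t)).prodMk ((by
        simpa using ((hasDerivAt_id (0 : ℝ)).smul_const a').const_add (a t) :
          HasDerivAt (fun s : ℝ => a t + s • a') a' 0).prodMk (hasDerivAt_const (0 : ℝ) (b t)))
    have h2 := hd.comp_hasDerivAt_of_eq (0 : ℝ) h1 (by simp [p0])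
    have h3 : HasDerivAt (fun s : ℝ => gam g (γ t) (a t + s • a') (b t)) (gam g (γ t) a' (b t)) 0 := by
      simp only [gam_add₁, gam_smul₁]
      simpa using ((hasDerivAt_id (0 : ℝ)).smul_const (gam g (γ t) a' (b t))).const_add
        (gam g (γ t) (a t) (b t))
    exact h2.unique h3
  have e3 : fderiv ℝ f p0 (0, 0, b') = gam g (γ t) (a t) b' := by
    have h1 : HasDerivAt (fun s : ℝ => (γ t, a t, b t + s • b')) ((0 : Space n), (0 : Space n), b') 0 :=
      (hasDerivAt_const (0 : ℝ) (γ t)).prodMk ((hasDerivAt_const (0 : ℝ) (a t)).prodMk (by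
        simpa using ((hasDerivAt_id (0 : ℝ)).smul_const b').const_add (b t)))
    have h2 := hd.comp_hasDerivAt_of_eq (0 : ℝ) h1 (by simp [p0])
    have h3 : HasDerivAt (fun s : ℝ => gam g (γ t) (a t) (b t + s • b')) (gam g (γ t) (a t) b') 0 := by
      simp only [gam_add₂, gam_smul₂]
      simpa using ((hasDerivAt_id (0 : ℝ)).smul_const (gam g (γ t) (a t) b')).const_add
        (gam g (γ t) (a t) (b t))
    exact h2.unique h3
  refine main.congr_deriv ?_
  rw [← e1, ← e2, ← e3, ← map_add, ← map_add]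
  simp

/-- The product rule for the metric along a curve. -/
lemma hasDerivAt_g (hg : IsMetric g) {γ a b : ℝ → Space n} {γ' a' b' : Space n} {t : ℝ}
    (hγ : HasDerivAt γ γ' t) (ha : HasDerivAt a a' t) (hb : HasDerivAt b b' t) :
    HasDerivAt (fun s => g (γ s) (a s) (b s))
      (g (γ t) (a' + gam g (γ t) γ' (a t)) (b t) + g (γ t) (a t) (b' + gam g (γ t) γ' (b t))) t := by
  have h1 : HasDerivAt (fun s => g (γ s)) (fderiv ℝ g (γ t) γ') t :=
    (((hg.smooth.differentiable (by simp)) (γ t)).hasFDerivAt).comp_hasDerivAt t hγ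
  refine ((h1.clm_apply ha).clm_apply hb).congr_deriv ?_
  simp only [ContinuousLinearMap.add_apply, map_add, g_compat hg]
  ring

/-- The smooth chart with its geodesic identity. -/
structure Chart (g : MetricField n) (o : Space n) (E : Space n → Space n) : Prop where
  smooth : ContDiff ℝ ∞ E
  zero : E 0 = o
  iso : ∀ u v, g o (fderiv ℝ E 0 u) (fderiv ℝ E 0 v) = inner ℝ u v
  geo : ∀ u (t : ℝ), deriv (deriv fun s : ℝ => E (s • u)) t =
    -gam g (E (t • u)) (deriv (fun s : ℝ => E (s • u)) t) (deriv (fun s : ℝ => E (s • u)) t)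

/-- The image of a direction along a radial geodesic. -/
def Y (E : Space n → Space n) (u w : Space n) (t : ℝ) : Space n := fderiv ℝ E (t • u) w

/-- The second derivative of the chart along a radial geodesic. -/
def Y' (E : Space n → Space n) (u w : Space n) (t : ℝ) : Space n :=
  fderiv ℝ (fderiv ℝ E) (t • u) u w

/-- The covariant derivative of `Y` along the geodesic. -/
def DY (g : MetricField n) (E : Space n → Space n) (u w : Space n) (t : ℝ) : Space n :=
  Y' E u w t + gam g (E (t • u)) (Y E u u t) (Y E u w t)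

lemma hasDerivAt_ray (u : Space n) (t : ℝ) : HasDerivAt (fun s : ℝ => s • u) u t := by
  simpa using (hasDerivAt_id t).smul_const u

lemma hasDerivAt_line (p w : Space n) (t : ℝ) : HasDerivAt (fun s : ℝ => p + s • w) w t :=
  (hasDerivAt_ray w t).const_add p

namespace Chart

variable (h : Chart g o E)
include h

lemma hasFDerivAt (p : Space n) : HasFDerivAt E (fderiv ℝ E p) p :=
  ((h.smooth.differentiable (by simp)) p).hasFDerivAt

lemma contDiff_D : ContDiff ℝ ∞ (fderiv ℝ E) := h.smooth.fderiv_right (m := ∞) le_rfl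

lemma hasFDerivAt_D (p : Space n) :
    HasFDerivAt (fderiv ℝ E) (fderiv ℝ (fderiv ℝ E) p) p :=
  ((h.contDiff_D.differentiable (by simp)) p).hasFDerivAt

lemma hasFDerivAt_D2 (p : Space n) :
    HasFDerivAt (fderiv ℝ (fderiv ℝ E)) (fderiv ℝ (fderiv ℝ (fderiv ℝ E)) p) p :=
  (((h.contDiff_D.fderiv_right (m := ∞) le_rfl).differentiable (by simp)) p).hasFDerivAt

lemma symm2 (p a b : Space n) :
    fderiv ℝ (fderiv ℝ E) p a b = fderiv ℝ (fderiv ℝ E) p b a :=
  (h.smooth.contDiffAt.isSymmSndFDerivAt (by simp; exact WithTop.coe_le_coe.2 le_top)).eq a b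

lemma symm3 (p a b c : Space n) :
    fderiv ℝ (fderiv ℝ (fderiv ℝ E)) p a b c = fderiv ℝ (fderiv ℝ (fderiv ℝ E)) p b a c := by
  rw [(h.contDiff_D.contDiffAt.isSymmSndFDerivAt
    (by simp; exact WithTop.coe_le_coe.2 le_top)).eq a b]

lemma symm3' (p a b c : Space n) :
    fderiv ℝ (fderiv ℝ (fderiv ℝ E)) p a b c = fderiv ℝ (fderiv ℝ (fderiv ℝ E)) p a c b := by
  have h2 := h.hasFDerivAt_D2 p
  have l : ∀ b c : Space n, HasFDerivAt (fun q => fderiv ℝ (fderiv ℝ E) q b c)
      (((fderiv ℝ (fderiv ℝ (fderiv ℝ E)) p).flip b).flip c) p := fun b c => by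
    have := (h2.clm_apply (hasFDerivAt_const b p)).clm_apply (hasFDerivAt_const c p)
    refine this.congr_fderiv ?_
    ext z
    simp
  have l' := l c b
  simp only [h.symm2 _ c b] at l'
  exact congrFun (congrArg DFunLike.coe ((l b c).unique l')) a

lemma deriv_ray (u : Space n) (t : ℝ) :
    HasDerivAt (fun s : ℝ => E (s • u)) (Y E u u t) t :=
  (h.hasFDerivAt _).comp_hasDerivAt t (hasDerivAt_ray u t)

lemma deriv_Y (u w : Space n) (t : ℝ) : HasDerivAt (Y E u w) (Y' E u w t) t := by
  have := ((h.hasFDerivAt_D _).comp_hasDerivAt t (hasDerivAt_ray u t)).clm_apply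
    (hasDerivAt_const t w)
  exact this.congr_deriv (by simp [Y'])

lemma deriv_Y' (u w : Space n) (t : ℝ) :
    HasDerivAt (Y' E u w) (fderiv ℝ (fderiv ℝ (fderiv ℝ E)) (t • u) u u w) t := by
  have h1 : HasDerivAt (fun s : ℝ => fderiv ℝ (fderiv ℝ E) (s • u))
      (fderiv ℝ (fderiv ℝ (fderiv ℝ E)) (t • u) u) t :=
    HasFDerivAt.comp_hasDerivAt (E := Space n →L[ℝ] Space n →L[ℝ] Space n) t
      (h.hasFDerivAt_D2 (t • u)) (hasDerivAt_ray u t)
  have h2 : HasDerivAt (fun s : ℝ => fderiv ℝ (fderiv ℝ E) (s • u) u)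
      (fderiv ℝ (fderiv ℝ (fderiv ℝ E)) (t • u) u u) t :=
    (h1.clm_apply (hasDerivAt_const t u)).congr_deriv (by rw [map_zero, add_zero])
  exact (h2.clm_apply (hasDerivAt_const t w)).congr_deriv (by rw [map_zero, add_zero])

lemma geo_eq (u : Space n) (t : ℝ) :
    Y' E u u t = -gam g (E (t • u)) (Y E u u t) (Y E u u t) := by
  have e : deriv (fun s : ℝ => E (s • u)) = Y E u u := funext fun s => (h.deriv_ray u s).deriv
  have := h.geo u t
  rwa [e, (h.deriv_Y u u t).deriv] at this

/-- The geodesic equation differentiated in the initial velocity. -/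
lemma geo_var (hg : IsMetric g) (u w : Space n) (t : ℝ) :
    t • fderiv ℝ (fderiv ℝ (fderiv ℝ E)) (t • u) u u w + (2 : ℝ) • Y' E u w t =
      -(fderiv ℝ (fun y => gam g y (Y E u u t) (Y E u u t)) (E (t • u)) (t • Y E u w t) +
        gam g (E (t • u)) (t • Y' E u w t + Y E u w t) (Y E u u t) +
        gam g (E (t • u)) (Y E u u t) (t • Y' E u w t + Y E u w t)) := by
  set P : ℝ → Space n := fun s => t • (u + s • w)
  have hP : HasDerivAt P (t • w) 0 := (hasDerivAt_line u w 0).const_smul t
  have hP0 : P 0 = t • u := by simp [P]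
  have hu : HasDerivAt (fun s : ℝ => u + s • w) w 0 := hasDerivAt_line u w 0
  have hL1 : HasDerivAt (fun s : ℝ => fderiv ℝ (fderiv ℝ E) (P s))
      (fderiv ℝ (fderiv ℝ (fderiv ℝ E)) (P 0) (t • w)) 0 :=
    HasFDerivAt.comp_hasDerivAt (E := Space n →L[ℝ] Space n →L[ℝ] Space n) (0 : ℝ)
      (h.hasFDerivAt_D2 (P 0)) hP
  have hL2 : HasDerivAt (fun s : ℝ => fderiv ℝ (fderiv ℝ E) (P s) (u + s • w))
      (fderiv ℝ (fderiv ℝ (fderiv ℝ E)) (P 0) (t • w) (u + (0 : ℝ) • w) +
        fderiv ℝ (fderiv ℝ E) (P 0) w) 0 := hL1.clm_apply hu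
  have hL : HasDerivAt (fun s : ℝ => fderiv ℝ (fderiv ℝ E) (P s) (u + s • w) (u + s • w))
      ((fderiv ℝ (fderiv ℝ (fderiv ℝ E)) (P 0) (t • w) (u + (0 : ℝ) • w) +
        fderiv ℝ (fderiv ℝ E) (P 0) w) (u + (0 : ℝ) • w) +
        fderiv ℝ (fderiv ℝ E) (P 0) (u + (0 : ℝ) • w) w) 0 := hL2.clm_apply hu
  have hγ : HasDerivAt (fun s : ℝ => E (P s)) (t • Y E u w t) 0 :=
    ((h.hasFDerivAt _).comp_hasDerivAt (0 : ℝ) hP).congr_deriv (by simp [Y, P])
  have ha : HasDerivAt (fun s : ℝ => fderiv ℝ E (P s) (u + s • w))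
      (t • Y' E u w t + Y E u w t) 0 :=
    (((h.hasFDerivAt_D _).comp_hasDerivAt (0 : ℝ) hP).clm_apply hu).congr_deriv (by
      simp [Y, Y', P, h.symm2 (t • u) w u])
  have hR := (hasDerivAt_gam hg hγ ha ha).neg
  have heq : (fun s : ℝ => fderiv ℝ (fderiv ℝ E) (P s) (u + s • w) (u + s • w)) =
      fun s : ℝ => -gam g (E (P s)) (fderiv ℝ E (P s) (u + s • w)) (fderiv ℝ E (P s) (u + s • w)) :=
    funext fun s => h.geo_eq (u + s • w) t
  have hR' := hR
  rw [show (-fun s : ℝ => gam g (E (P s)) (fderiv ℝ E (P s) (u + s • w))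
      (fderiv ℝ E (P s) (u + s • w))) = fun s : ℝ => fderiv ℝ (fderiv ℝ E) (P s) (u + s • w)
      (u + s • w) from heq.symm] at hR'
  have := hL.unique hR'
  simp only [ContinuousLinearMap.add_apply, hP0, Function.comp_apply, zero_smul, add_zero,
    map_smul, ContinuousLinearMap.smul_apply] at this
  rw [h.symm3 _ w u u, h.symm3' _ u w u, h.symm2 _ w u] at this
  simp only [Y, Y', map_smul] at this ⊢
  rw [← this]
  module

/-- The Jacobi equation. -/
lemma jacobi (hg : IsMetric g) (u w : Space n) (t : ℝ) :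
    ∃ Z, HasDerivAt (DY g E u w) Z t ∧
      (2 : ℝ) • DY g E u w t + t • (Z + gam g (E (t • u)) (Y E u u t) (DY g E u w t)) =
        -(t • riem g (E (t • u)) (Y E u w t) (Y E u u t) (Y E u u t)) := by
  refine ⟨_, (h.deriv_Y' u w t).add
    (hasDerivAt_gam hg (h.deriv_ray u t) (h.deriv_Y u u t) (h.deriv_Y u w t)), ?_⟩
  have hv := h.geo_var hg u w t
  simp only [map_smul, gam_add₁, gam_smul₁, gam_add₂, gam_smul₂,
    gam_symm hg (E (t • u)) (Y' E u w t) (Y E u u t), gam_symm hg (E (t • u)) (Y E u w t) (Y E u u t)] at hv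
  simp only [riem, DY, h.geo_eq u t, gam_add₂,
    show gam g (E (t • u)) (-gam g (E (t • u)) (Y E u u t) (Y E u u t)) (Y E u w t) =
      -gam g (E (t • u)) (gam g (E (t • u)) (Y E u u t) (Y E u u t)) (Y E u w t) by
        rw [← neg_one_smul ℝ (gam g (E (t • u)) (Y E u u t) (Y E u u t)), gam_smul₁, neg_one_smul],
    gam_symm hg (E (t • u)) (gam g (E (t • u)) (Y E u u t) (Y E u u t)) (Y E u w t)]
  rw [show (fun y => gam g y (Y E u w t) (Y E u u t)) = fun y => gam g y (Y E u u t) (Y E u w t)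
    from funext fun y => gam_symm hg y _ _, gam_symm hg (E (t • u)) (Y E u w t) (Y E u u t)]
  linear_combination (norm := module) hv

/-- Speed is constant along the radial geodesics. -/
lemma speed (hg : IsMetric g) (u : Space n) (t : ℝ) :
    g (E (t • u)) (Y E u u t) (Y E u u t) = inner ℝ u u := by
  have hd : ∀ s, HasDerivAt (fun s => g (E (s • u)) (Y E u u s) (Y E u u s)) 0 s := fun s =>
    (hasDerivAt_g hg (h.deriv_ray u s) (h.deriv_Y u u s) (h.deriv_Y u u s)).congr_deriv (by
      rw [h.geo_eq u s, neg_add_cancel]; simp)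
  have := is_const_of_deriv_eq_zero (fun s => (hd s).differentiableAt) (fun s => (hd s).deriv) t 0
  rw [this]
  simp [Y, h.zero, h.iso]

/-- The Gauss lemma. -/
lemma gauss_lemma (hg : IsMetric g) (u w : Space n) :
    g (E u) (fderiv ℝ E u u) (fderiv ℝ E u w) = inner ℝ u w := by
  set x : ℝ → Space n := fun t => E (t • u)
  -- variation of the speed
  have hvar : ∀ t : ℝ, g (x t) (Y E u u t) (Y E u w t + t • DY g E u w t) = inner ℝ u w := by
    intro t
    have hP : HasDerivAt (fun s : ℝ => t • (u + s • w)) (t • w) 0 :=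
      (hasDerivAt_line u w 0).const_smul t
    have hu : HasDerivAt (fun s : ℝ => u + s • w) w 0 := hasDerivAt_line u w 0
    have hγ : HasDerivAt (fun s : ℝ => E (t • (u + s • w))) (t • Y E u w t) 0 :=
      ((h.hasFDerivAt _).comp_hasDerivAt (0 : ℝ) hP).congr_deriv (by simp [Y])
    have ha : HasDerivAt (fun s : ℝ => fderiv ℝ E (t • (u + s • w)) (u + s • w))
        (t • Y' E u w t + Y E u w t) 0 :=
      (((h.hasFDerivAt_D _).comp_hasDerivAt (0 : ℝ) hP).clm_apply hu).congr_deriv (by
        simp [Y, Y', h.symm2 (t • u) w u])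
    have h1 := hasDerivAt_g hg hγ ha ha
    simp only [zero_smul, add_zero] at h1
    have h2 : HasDerivAt (fun s : ℝ => g (E (t • (u + s • w)))
        (fderiv ℝ E (t • (u + s • w)) (u + s • w)) (fderiv ℝ E (t • (u + s • w)) (u + s • w)))
        (2 * inner ℝ u w) 0 := by
      rw [show (fun s : ℝ => g (E (t • (u + s • w)))
        (fderiv ℝ E (t • (u + s • w)) (u + s • w)) (fderiv ℝ E (t • (u + s • w)) (u + s • w))) =
        fun s : ℝ => inner ℝ (u + s • w) (u + s • w) from funext fun s => h.speed hg _ t]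
      refine (hu.inner ℝ hu).congr_deriv ?_
      simp [real_inner_comm w u]
      ring
    have h3 := h1.unique h2
    have e : t • Y' E u w t + Y E u w t + gam g (x t) (t • Y E u w t) (Y E u u t) =
        Y E u w t + t • DY g E u w t := by
      rw [DY, gam_smul₁, gam_symm hg, smul_add]
      abel
    change g (x t) (t • Y' E u w t + Y E u w t + gam g (x t) (t • Y E u w t) (Y E u u t)) (Y E u u t) +
      g (x t) (Y E u u t)
        (t • Y' E u w t + Y E u w t + gam g (x t) (t • Y E u w t) (Y E u u t)) = _ at h3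
    rw [e, hg.symm (x t) (Y E u w t + t • DY g E u w t)] at h3
    linarith
  have hd : ∀ t, HasDerivAt (fun t => t * g (x t) (Y E u u t) (Y E u w t) - t * inner ℝ u w) 0 t := by
    intro t
    refine (((hasDerivAt_id t).mul (hasDerivAt_g hg (h.deriv_ray u t) (h.deriv_Y u u t)
      (h.deriv_Y u w t))).sub ((hasDerivAt_id t).mul_const _)).congr_deriv ?_
    rw [h.geo_eq u t, neg_add_cancel, ← hvar t]
    simp [DY, x]
    ring
  have := is_const_of_deriv_eq_zero (fun t => (hd t).differentiableAt) (fun t => (hd t).deriv) 1 0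
  simp [x, Y] at this
  linarith

end Chart

end

end Vale.Agent.P219.Univ.Geo
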